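import Vale.Agent.P073.MathlibUsed

/-!
# P073: definitions for the Ball-Evans approximation problem in dimension three
-/

namespace Vale.Agent.P073.St

open MeasureTheory Set Filter Topology
open scoped ContDiff

/-- Points of three-space. The topology is the usual one; the Euclidean norm is `euc`. -/
abbrev V : Type := Fin 3 → ℝ

/-- Three by three matrices, entrywise. -/
abbrev Mat : Type := Fin 3 → Fin 3 → ℝ

/-- The Euclidean norm of a vector. -/
noncomputable def euc (v : V) : ℝ := Real.sqrt (∑ i, v i ^ 2)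

/-- The Euclidean (Frobenius) norm of a matrix. -/
noncomputable def frob (M : Mat) : ℝ := Real.sqrt (∑ i, ∑ j, M i j ^ 2)

/-- The matrix `M` applied to the vector `v`. -/
noncomputable def ap (M : Mat) (v : V) : V := fun i => ∑ j, M i j * v j

/-- The matrix product. -/
noncomputable def mm (M N : Mat) : Mat := fun i k => ∑ j, M i j * N j k

/-- `M` is invertible. -/
def NonSing (M : Mat) : Prop := ∀ v, ap M v = 0 → v = 0

/-- `u` is a smooth real function on `Ω`. -/
def Sm (Ω : Set V) (u : V → ℝ) : Prop := ContDiffOn ℝ ∞ u Ω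

/-- `u` is a smooth real function on `Ω × Λ`. -/
def Sm2 (Ω Λ : Set V) (u : V → V → ℝ) : Prop := ContDiffOn ℝ ∞ (fun z : V × V => u z.1 z.2) (Ω ×ˢ Λ)

/-- The partial derivative `∂u/∂x_j`. -/
noncomputable def pd (u : V → ℝ) (x : V) (j : Fin 3) : ℝ :=
  deriv (fun t => u (Function.update x j t)) (x j)

/-- The Jacobian matrix. -/
noncomputable def jac (g : V → V) (x : V) : Mat := fun i j => pd (fun z => g z i) x j

/-- A bounded domain: a bounded, nonempty, connected, open set. -/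
def IsBoundedDomain (Ω : Set V) : Prop :=
  IsOpen Ω ∧ IsConnected Ω ∧ ∃ R : ℝ, ∀ x ∈ Ω, euc x ≤ R

/-- The integral over `Ω` with respect to Lebesgue measure. -/
noncomputable def int (Ω : Set V) (u : V → ℝ) : ℝ := ∫ x in Ω, u x

/-- `u` belongs to `L^p(Ω)`. -/
def InLp (p : ℝ) (Ω : Set V) (u : V → ℝ) : Prop :=
  MemLp u (ENNReal.ofReal p) (volume.restrict Ω)

/-- `φ` is a smooth function with compact support in `Ω`. -/
def IsTest (Ω : Set V) (φ : V → ℝ) : Prop :=
  Sm univ φ ∧ HasCompactSupport φ ∧ tsupport φ ⊆ Ω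

/-- `f` belongs to `W^{1,p}(Ω; ℝ³)`, with weak derivative matrix `F`. -/
def IsSobolev (p : ℝ) (Ω : Set V) (f : V → V) (F : V → Mat) : Prop :=
  (∀ i, InLp p Ω (fun x => f x i)) ∧ (∀ i j, InLp p Ω (fun x => F x i j)) ∧
    ∀ φ, IsTest Ω φ → ∀ i j, int Ω (fun x => φ x * F x i j) = - int Ω (fun x => pd φ x j * f x i)

/-- `h` is the inverse of the bijection `f` of `Ω` onto `Λ`. -/
def IsInv (Ω Λ : Set V) (f h : V → V) : Prop :=
  (∀ x ∈ Ω, f x ∈ Λ ∧ h (f x) = x) ∧ ∀ y ∈ Λ, h y ∈ Ω ∧ f (h y) = y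

/-- `f` is a homeomorphism of `Ω` onto `Λ`. -/
def IsHomeo (Ω Λ : Set V) (f : V → V) : Prop :=
  ∃ h : V → V, IsInv Ω Λ f h ∧ ContinuousOn f Ω ∧ ContinuousOn h Λ

/-- `g` is a `C^∞` diffeomorphism of `Ω` onto `Λ`. -/
def IsDiffeo (Ω Λ : Set V) (g : V → V) : Prop :=
  ∃ h : V → V, IsInv Ω Λ g h ∧ (∀ i, Sm Ω (fun x => g x i)) ∧ ∀ i, Sm Λ (fun y => h y i)

/-- `f : Ω → Λ`, with weak derivative matrix `F`, is diffeomorphically approximable in `W^{1,p}`:
there are `C^∞` diffeomorphisms `g k` of `Ω` onto the same `Λ`, each in `W^{1,p}(Ω; ℝ³)`, with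
`∫_Ω |g k - f|^p + |D (g k) - D f|^p → 0`. -/
def DiffeoApproximable (p : ℝ) (Ω Λ : Set V) (f : V → V) (F : V → Mat) : Prop :=
  ∃ g : ℕ → V → V, (∀ k, IsDiffeo Ω Λ (g k) ∧ IsSobolev p Ω (g k) (jac (g k))) ∧
    Tendsto (fun k => int Ω (fun x => euc (g k x - f x) ^ p + frob (jac (g k) x - F x) ^ p))
      atTop (𝓝 0)

/-- `C` is a convex cone of matrices, transversal to `-1` with constant `K`. -/
def IsGoodCone (K : ℝ) (C : Set Mat) : Prop :=
  (∀ M ∈ C, ∀ t : ℝ, 0 < t → t • M ∈ C) ∧ (∀ M ∈ C, ∀ N ∈ C, M + N ∈ C) ∧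
    ∀ M ∈ C, ∀ v : V, euc v ≤ K * euc (v + ap M v)

/-- The convex cone condition for a map `f` of `Ω` onto `Λ` with weak derivative matrix `F`. -/
def ConeCondition (Ω Λ : Set V) (f : V → V) (F : V → Mat) : Prop :=
  ∃ (C : Set Mat) (K : ℝ) (A : V → Mat) (b : V → V → V),
    IsGoodCone K C ∧ (∀ i j, Sm Ω (fun x => A x i j)) ∧ (∀ x ∈ Ω, NonSing (A x)) ∧
    (∀ i, Sm2 Ω Λ (fun x y => b x y i)) ∧ (∀ x ∈ Ω, InjOn (b x) Λ) ∧
    (∀ x ∈ Ω, ∀ y ∈ Λ, NonSing (jac (b x) y)) ∧
    ∀ᵐ x ∂(volume : Measure V), x ∈ Ω → mm (mm (jac (b x) (f x)) (F x)) (A x) ∈ C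

/-- `f` belongs to `W^{1,p}_loc(Ω; ℝ³)`, with weak derivative matrix `F`. -/
def IsLocSobolev (p : ℝ) (Ω : Set V) (f : V → V) (F : V → Mat) : Prop :=
  ∀ U, IsOpen U → closure U ⊆ Ω → IsSobolev p U f F

/-- Near `a`, after the linear changes of variables `S` and `T`, the map `f` has linear distortion
at most `K`. -/
def SmallDistortionAt (K : ℝ) (f : V → V) (a : V) : Prop :=
  ∃ (r : ℝ) (S T : Mat), 0 < r ∧ NonSing S ∧ NonSing T ∧
    ∀ x y, euc (x - a) < r → euc (y - a) < r →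
      euc (ap S (x - y)) ≤ euc (ap T (f x - f y)) ∧
      euc (ap T (f x - f y)) ≤ K * euc (ap S (x - y))

/-- Near `a`, the map `f` is Lipschitz, and to every direction `h` there is a direction `n` in
which the image point advances at a definite rate when the point advances in direction `h`. -/
def DirMonotoneAt (f : V → V) (a : V) : Prop :=
  (∃ r L : ℝ, 0 < r ∧ ∀ x y, euc (x - a) < r → euc (y - a) < r →
      euc (f x - f y) ≤ L * euc (x - y)) ∧
    ∀ h : V, h ≠ 0 → ∃ (n : V) (r : ℝ), 0 < r ∧ ∀ (x : V) (t : ℝ), 0 < t → euc (x - a) < r →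
      euc (x + t • h - a) < r → t ≤ ∑ i, n i * (f (x + t • h) i - f x i)

/-- The smallest class of homeomorphisms between bounded domains which contains those that
satisfy one of the two local conditions near each point, the first with a fixed `K < √5`, and
which is closed under composition. -/
inductive Generated : Set V → Set V → (V → V) → Prop
  | base {Ω Λ : Set V} {f : V → V} {K : ℝ} : IsBoundedDomain Ω → IsBoundedDomain Λ →
      IsHomeo Ω Λ f → K < Real.sqrt 5 →
      (∀ a ∈ Ω, SmallDistortionAt K f a ∨ DirMonotoneAt f a) → Generated Ω Λ f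
  | comp {Ω Λ Ξ : Set V} {f g : V → V} : Generated Ω Λ f → Generated Λ Ξ g →
      Generated Ω Ξ (fun x => g (f x))

end Vale.Agent.P073.St
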